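import Vale.Agent.H20.OTDefs

/-!
# Discretisation of a coupling into matched atoms with injective site maps (problem P074)
-/

namespace Vale.Agent.H38

open MeasureTheory Set

section netmap

variable {E : Type*} [NormedAddCommGroup E]

open Classical in
/-- First-hit map along a list: the first point of the list within distance `η`, else `0`. -/
noncomputable def netMap (η : ℝ) : List E → E → E
  | [], _ => 0
  | (x :: xs), p => if dist p x < η then x else netMap η xs p

theorem netMap_mem (η : ℝ) (l : List E) (p : E) : netMap η l p = 0 ∨ netMap η l p ∈ l := by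
  induction l with
  | nil => left; rfl
  | cons x xs ih =>
    simp only [netMap]
    split_ifs with h
    · right; exact List.mem_cons_self
    · rcases ih with h0 | h1
      · left; exact h0
      · right; exact List.mem_cons_of_mem _ h1

theorem netMap_dist (η : ℝ) (l : List E) (p : E) (h : ∃ x ∈ l, dist p x < η) :
    dist p (netMap η l p) < η := by
  induction l with
  | nil => obtain ⟨x, hx, _⟩ := h; simp at hx
  | cons x xs ih =>
    simp only [netMap]
    split_ifs with h1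
    · exact h1
    · apply ih
      obtain ⟨x', hx', hd⟩ := h
      rcases List.mem_cons.1 hx' with rfl | hmem
      · exact absurd hd h1
      · exact ⟨x', hmem, hd⟩

theorem measurable_netMap [MeasurableSpace E] [OpensMeasurableSpace E] (η : ℝ) (l : List E) :
    Measurable (netMap η l) := by
  induction l with
  | nil => exact measurable_const
  | cons x xs ih =>
    have hs : MeasurableSet {p : E | dist p x < η} := by
      have : {p : E | dist p x < η} = Metric.ball x η := by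
        ext p; simp [Metric.mem_ball]
      rw [this]; exact Metric.isOpen_ball.measurableSet
    exact Measurable.ite hs measurable_const ih

/-- A finite-range measurable approximation of the identity on a ball. -/
theorem exists_net_map [NormedSpace ℝ E] [ProperSpace E] [MeasurableSpace E]
    [OpensMeasurableSpace E] {R : ℝ} (hR : 0 ≤ R) {η : ℝ} (hη : 0 < η) :
    ∃ (r : E → E) (T : Finset E), Measurable r ∧ (∀ p, r p ∈ T) ∧ (∀ a ∈ T, ‖a‖ ≤ R) ∧
      ∀ p, ‖p‖ ≤ R → ‖r p - p‖ ≤ η := by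
  classical
  obtain ⟨t, hts, htfin, hcov⟩ :=
    (isCompact_closedBall (0 : E) R).finite_cover_balls hη
  set l : List E := htfin.toFinset.toList with hl
  have hmem : ∀ x, x ∈ l ↔ x ∈ t := by
    intro x; rw [hl, Finset.mem_toList, Set.Finite.mem_toFinset]
  refine ⟨netMap η l, insert 0 l.toFinset, measurable_netMap η l, ?_, ?_, ?_⟩
  · intro p
    rcases netMap_mem η l p with h | h
    · rw [h]; exact Finset.mem_insert_self _ _
    · exact Finset.mem_insert_of_mem (List.mem_toFinset.2 h)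
  · intro a ha
    rcases Finset.mem_insert.1 ha with rfl | h
    · simpa using hR
    · have : a ∈ t := (hmem a).1 (List.mem_toFinset.1 h)
      have := hts this
      simpa [Metric.mem_closedBall, dist_zero_right] using this
  · intro p hp
    have hp' : p ∈ Metric.closedBall (0 : E) R := by
      simpa [Metric.mem_closedBall, dist_zero_right] using hp
    have := hcov hp'
    simp only [mem_iUnion, Metric.mem_ball, exists_prop] at this
    obtain ⟨x, hx, hd⟩ := this
    have h1 := netMap_dist η l p ⟨x, (hmem x).2 hx, hd⟩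
    rw [← dist_eq_norm, dist_comm]
    exact h1.le

end netmap


section epsilon

variable {E : Type*} [AddCommGroup E] [Module ℝ E]

/-- A generic small `ε` makes `(a, b) ↦ a + ε • b` injective on a finite set. -/
theorem exists_eps_injective (T : Finset E) {ε₀ : ℝ} (hε₀ : 0 < ε₀) :
    ∃ ε : ℝ, 0 < ε ∧ ε < ε₀ ∧ ∀ a ∈ T, ∀ b ∈ T, ∀ a' ∈ T, ∀ b' ∈ T,
      a + ε • b = a' + ε • b' → a = a' ∧ b = b' := by
  classical
  set Q : Finset (E × E × E × E) := T ×ˢ T ×ˢ T ×ˢ T with hQ
  set bad : Set ℝ :=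
    ⋃ q ∈ Q, {ε : ℝ | q.2.1 ≠ q.2.2.2 ∧ q.1 + ε • q.2.1 = q.2.2.1 + ε • q.2.2.2} with hbad_def
  have hfin : bad.Finite := by
    apply Set.Finite.biUnion Q.finite_toSet
    intro q _
    apply Set.Subsingleton.finite
    intro ε₁ h₁ ε₂ h₂
    have e1 := h₁.2
    have e2 := h₂.2
    have h3 : (ε₁ - ε₂) • (q.2.1 - q.2.2.2) = 0 := by
      have h4 : (q.1 + ε₁ • q.2.1) - (q.1 + ε₂ • q.2.1)
          = (q.2.2.1 + ε₁ • q.2.2.2) - (q.2.2.1 + ε₂ • q.2.2.2) := by rw [e1, e2]
      simp only [add_sub_add_left_eq_sub] at h4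
      rw [sub_smul, smul_sub, smul_sub]
      have h5 : ε₁ • q.2.1 - ε₂ • q.2.1 - (ε₁ • q.2.2.2 - ε₂ • q.2.2.2) = 0 := by
        rw [h4]; exact sub_self _
      rw [← h5]; abel
    rcases smul_eq_zero.1 h3 with h | h
    · exact sub_eq_zero.1 h
    · exact absurd (sub_eq_zero.1 h) h₁.1
  have hinf : (Set.Ioo (0 : ℝ) ε₀).Infinite := Set.Ioo_infinite hε₀
  obtain ⟨ε, hε, hnb⟩ := hinf.exists_notMem_finite hfin
  refine ⟨ε, hε.1, hε.2, ?_⟩
  intro a ha b hb a' ha' b' hb' heq
  have hb_eq : b = b' := by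
    by_contra hne
    apply hnb
    rw [hbad_def]
    simp only [mem_iUnion]
    refine ⟨(a, b, a', b'), ?_, hne, heq⟩
    simp [hQ, ha, hb, ha', hb']
  subst hb_eq
  exact ⟨add_right_cancel heq, rfl⟩

end epsilon


section atoms

/-- A measure carried by the range of an injective finite family is the sum of its atoms. -/
theorem measure_eq_sum_dirac {β : Type*} [MeasurableSpace β] [MeasurableSingletonClass β]
    {ι : Type*} [Fintype ι] (γ : Measure β) (u : ι → β) (hu : Function.Injective u)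
    (hγ : γ (Set.range u)ᶜ = 0) :
    γ = ∑ i, γ {u i} • Measure.dirac (u i) := by
  classical
  ext s hs
  rw [Measure.finsetSum_apply]
  simp only [Measure.smul_apply, smul_eq_mul, Measure.dirac_apply' _ hs]
  have h1 : γ s = γ (s ∩ Set.range u) := by
    apply le_antisymm
    · calc γ s ≤ γ (s ∩ Set.range u ∪ (Set.range u)ᶜ) := by
            apply measure_mono
            intro x hx
            by_cases h : x ∈ Set.range u
            · exact Or.inl ⟨hx, h⟩
            · exact Or.inr h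
        _ ≤ γ (s ∩ Set.range u) + γ (Set.range u)ᶜ := measure_union_le _ _
        _ = γ (s ∩ Set.range u) := by rw [hγ, add_zero]
    · exact measure_mono Set.inter_subset_left
  have h2 : s ∩ Set.range u = ⋃ i ∈ (Finset.univ.filter (fun i => u i ∈ s)), {u i} := by
    ext x
    simp only [mem_inter_iff, mem_range, Finset.mem_filter, Finset.mem_univ, true_and,
      mem_iUnion, mem_singleton_iff, exists_prop]
    constructor
    · rintro ⟨hx, i, rfl⟩; exact ⟨i, hx, rfl⟩
    · rintro ⟨i, hi, rfl⟩; exact ⟨hi, i, rfl⟩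
  rw [h1, h2, measure_biUnion_finset]
  · rw [Finset.sum_filter]
    apply Finset.sum_congr rfl
    intro i _
    by_cases h : u i ∈ s <;> simp [h]
  · intro i _ j _ hij
    simp only [Function.onFun, Set.disjoint_singleton]
    exact hu.ne hij
  · intro i _; exact measurableSet_singleton _

/-- Push-forward of a finite sum of weighted Dirac masses. -/
theorem map_sum_smul_dirac {α β ι : Type*} [MeasurableSpace α] [MeasurableSpace β] [Fintype ι]
    (g : α → β) (hg : Measurable g) (c : ι → ENNReal) (u : ι → α) :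
    (∑ i, c i • Measure.dirac (u i)).map g = ∑ i, c i • Measure.dirac (g (u i)) := by
  rw [← Measure.mapₗ_apply_of_measurable hg, map_sum]
  refine Finset.sum_congr rfl (fun i _ => ?_)
  rw [map_smul, Measure.mapₗ_apply_of_measurable hg, Measure.map_dirac' hg]

end atoms


section core

variable {E : Type*} [NormedAddCommGroup E] [NormedSpace ℝ E] [ProperSpace E]
  [MeasurableSpace E] [BorelSpace E] [SecondCountableTopology E]

/-- The twisted rounding map: a measurable `F` of finite range, moving both components by at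
most `κ` on the ball, whose push-forward of `π` is a finite sum of atoms `u i` with injective
first components and injective second components. -/
theorem exists_twisted_atoms {R : ℝ} (hR : 0 ≤ R) (π : Measure (E × E))
    [IsProbabilityMeasure π] (hπ : ∀ᵐ p ∂π, ‖p.1‖ ≤ R ∧ ‖p.2‖ ≤ R) {κ : ℝ} (hκ : 0 < κ) :
    ∃ (n : ℕ) (u : Fin (n + 1) → E × E) (F : E × E → E × E), Measurable F ∧
      Function.Injective (fun i => (u i).1) ∧ Function.Injective (fun i => (u i).2) ∧
      (∀ i, 0 < π.map F {u i}) ∧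
      π.map F = ∑ i, π.map F {u i} • Measure.dirac (u i) ∧
      (∀ i, ‖(u i).1‖ ≤ R + κ) ∧ (∀ i, ‖(u i).2‖ ≤ R + κ) ∧
      (∀ᵐ p ∂π, ‖(F p).1 - p.1‖ ≤ κ ∧ ‖(F p).2 - p.2‖ ≤ κ) := by
  classical
  obtain ⟨r, T, hrm, hrT, hTR, hrη⟩ := exists_net_map (E := E) hR (half_pos hκ)
  have hε₀ : 0 < κ / (2 * (R + 1)) := by positivity
  obtain ⟨ε, hε0, hεlt, hεinj⟩ := exists_eps_injective T hε₀
  have hεR : ε * R ≤ κ / 2 := by
    have h1 : ε * R ≤ κ / (2 * (R + 1)) * (R + 1) :=
      mul_le_mul hεlt.le (by linarith) hR hε₀.le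
    have h2 : κ / (2 * (R + 1)) * (R + 1) = κ / 2 := by
      have : R + 1 ≠ 0 := by positivity
      field_simp
    linarith
  set G : E × E → E × E := fun q => (q.1 + ε • q.2, q.2 + ε • q.1) with hG
  set F : E × E → E × E := fun p => G (r p.1, r p.2) with hF
  have hFm : Measurable F := by
    have h1 : Measurable (fun p : E × E => r p.1) := hrm.comp measurable_fst
    have h2 : Measurable (fun p : E × E => r p.2) := hrm.comp measurable_snd
    exact (h1.add (h2.const_smul ε)).prodMk (h2.add (h1.const_smul ε))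
  set S : Finset (E × E) := (T ×ˢ T).image G with hS
  have hFS : ∀ p, F p ∈ S := fun p =>
    Finset.mem_image_of_mem G (Finset.mem_product.2 ⟨hrT _, hrT _⟩)
  set γ : Measure (E × E) := π.map F with hγ
  have hγprob : IsProbabilityMeasure γ := Measure.isProbabilityMeasure_map hFm.aemeasurable
  set P : Finset (E × E) := S.filter (fun u => 0 < γ {u}) with hP
  have hγSc : γ (↑S)ᶜ = 0 := by
    rw [hγ, Measure.map_apply hFm S.measurableSet.compl]
    have : F ⁻¹' (↑S)ᶜ = ∅ := by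
      ext p
      simp [hFS p]
    rw [this, measure_empty]
  have hγPc : γ (↑P)ᶜ = 0 := by
    have hsub : ((↑P : Set (E × E)))ᶜ ⊆
        (↑S)ᶜ ∪ ⋃ u ∈ S.filter (fun u => ¬ 0 < γ {u}), {u} := by
      intro x hx
      by_cases hxS : x ∈ S
      · right
        simp only [mem_iUnion, mem_singleton_iff, exists_prop]
        refine ⟨x, ?_, rfl⟩
        rw [Finset.mem_filter]
        refine ⟨hxS, fun h => hx ?_⟩
        simp [hP, hxS, h]
      · left
        simpa using hxS
    apply measure_mono_null hsub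
    rw [measure_union_null_iff]
    refine ⟨hγSc, (measure_biUnion_null_iff (Finset.countable_toSet _)).2 ?_⟩
    intro u hu
    have := (Finset.mem_filter.1 (Finset.mem_coe.1 hu)).2
    simpa using this
  have hPne : P.Nonempty := by
    by_contra hne
    rw [Finset.not_nonempty_iff_eq_empty] at hne
    rw [hne] at hγPc
    simp at hγPc
  obtain ⟨n, hn⟩ : ∃ n, P.card = n + 1 :=
    ⟨P.card - 1, by have := Finset.card_pos.2 hPne; omega⟩
  set e : Fin (n + 1) ≃ P := (Finset.equivFinOfCardEq hn).symm with he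
  set u : Fin (n + 1) → E × E := fun i => (e i : E × E) with hu
  have huP : ∀ i, u i ∈ P := fun i => (e i).2
  have huS : ∀ i, u i ∈ S := fun i => (Finset.mem_filter.1 (huP i)).1
  have hu_inj : Function.Injective u := fun i j h => e.injective (Subtype.ext h)
  have hrep : ∀ i, ∃ a ∈ T, ∃ b ∈ T, u i = (a + ε • b, b + ε • a) := by
    intro i
    obtain ⟨q, hq, hqe⟩ := Finset.mem_image.1 (huS i)
    exact ⟨q.1, (Finset.mem_product.1 hq).1, q.2, (Finset.mem_product.1 hq).2, hqe.symm⟩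
  have hrange : Set.range u = ↑P := by
    ext x
    constructor
    · rintro ⟨i, rfl⟩; exact huP i
    · intro hx
      refine ⟨e.symm ⟨x, hx⟩, ?_⟩
      simp [hu]
  refine ⟨n, u, F, hFm, ?_, ?_, ?_, ?_, ?_, ?_, ?_⟩
  · intro i j hij
    obtain ⟨a, ha, b, hb, hi⟩ := hrep i
    obtain ⟨a', ha', b', hb', hj⟩ := hrep j
    simp only [hi, hj] at hij
    obtain ⟨h1, h2⟩ := hεinj a ha b hb a' ha' b' hb' hij
    apply hu_inj
    rw [hi, hj, h1, h2]
  · intro i j hij
    obtain ⟨a, ha, b, hb, hi⟩ := hrep i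
    obtain ⟨a', ha', b', hb', hj⟩ := hrep j
    simp only [hi, hj] at hij
    obtain ⟨h1, h2⟩ := hεinj b hb a ha b' hb' a' ha' hij
    apply hu_inj
    rw [hi, hj, h1, h2]
  · intro i
    exact (Finset.mem_filter.1 (huP i)).2
  · apply measure_eq_sum_dirac γ u hu_inj
    rw [hrange]; exact hγPc
  · intro i
    obtain ⟨a, ha, b, hb, hi⟩ := hrep i
    rw [hi]
    calc ‖a + ε • b‖ ≤ ‖a‖ + ‖ε • b‖ := norm_add_le _ _
      _ = ‖a‖ + ε * ‖b‖ := by rw [norm_smul, Real.norm_of_nonneg hε0.le]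
      _ ≤ R + ε * R := add_le_add (hTR a ha) (mul_le_mul_of_nonneg_left (hTR b hb) hε0.le)
      _ ≤ R + κ := by linarith
  · intro i
    obtain ⟨a, ha, b, hb, hi⟩ := hrep i
    rw [hi]
    calc ‖b + ε • a‖ ≤ ‖b‖ + ‖ε • a‖ := norm_add_le _ _
      _ = ‖b‖ + ε * ‖a‖ := by rw [norm_smul, Real.norm_of_nonneg hε0.le]
      _ ≤ R + ε * R := add_le_add (hTR b hb) (mul_le_mul_of_nonneg_left (hTR a ha) hε0.le)
      _ ≤ R + κ := by linarith
  · filter_upwards [hπ] with p hp
    have key : ∀ a b : E, ‖a‖ ≤ R → ‖r a + ε • r b - a‖ ≤ κ := by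
      intro a b ha
      calc ‖r a + ε • r b - a‖ = ‖(r a - a) + ε • r b‖ := by congr 1; abel
        _ ≤ ‖r a - a‖ + ‖ε • r b‖ := norm_add_le _ _
        _ = ‖r a - a‖ + ε * ‖r b‖ := by rw [norm_smul, Real.norm_of_nonneg hε0.le]
        _ ≤ κ / 2 + ε * R :=
          add_le_add (hrη a ha) (mul_le_mul_of_nonneg_left (hTR _ (hrT b)) hε0.le)
        _ ≤ κ := by linarith
    exact ⟨key p.1 p.2 hp.1, key p.2 p.1 hp.2⟩

/-- Discretisation core: matched atoms with injective sites, explicit couplings of the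
marginals with the discrete marginals (displacement at most `κ`), and the cost bound in
extended nonnegative reals. -/
theorem exists_discrete_core {R : ℝ} (hR : 0 ≤ R) (π : Measure (E × E))
    [IsProbabilityMeasure π] (hπ : ∀ᵐ p ∂π, ‖p.1‖ ≤ R ∧ ‖p.2‖ ≤ R) {κ : ℝ} (hκ : 0 < κ) :
    ∃ (n : ℕ) (y z : Fin (n + 1) → E) (w : Fin (n + 1) → ℝ),
      Function.Injective y ∧ Function.Injective z ∧ (∀ i, 0 < w i) ∧ (∑ i, w i) = 1 ∧
      (∀ i, ‖y i‖ ≤ R + κ) ∧ (∀ i, ‖z i‖ ≤ R + κ) ∧
      (∃ π₁ : Measure (E × E), π₁.fst = π.fst ∧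
        π₁.snd = (∑ i, ENNReal.ofReal (w i) • Measure.dirac (y i)) ∧
        ∀ᵐ p ∂π₁, ‖p.1 - p.2‖ ≤ κ) ∧
      (∃ π₂ : Measure (E × E), π₂.fst = π.snd ∧
        π₂.snd = (∑ i, ENNReal.ofReal (w i) • Measure.dirac (z i)) ∧
        ∀ᵐ p ∂π₂, ‖p.1 - p.2‖ ≤ κ) ∧
      (∑ i, ENNReal.ofReal (w i) * ENNReal.ofReal (‖z i - y i‖ ^ 2)) ≤
        (∫⁻ p, ENNReal.ofReal ((‖p.1 - p.2‖ + 2 * κ) ^ 2) ∂π) := by
  classical
  obtain ⟨n, u, F, hFm, hy, hz, hpos, hγeq, hyb, hzb, hFκ⟩ := exists_twisted_atoms hR π hπ hκ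
  have hγprob : IsProbabilityMeasure (π.map F) :=
    Measure.isProbabilityMeasure_map hFm.aemeasurable
  set c : Fin (n + 1) → ENNReal := fun i => π.map F {u i} with hc
  have hcfin : ∀ i, c i ≠ ⊤ := fun i => measure_ne_top _ _
  have hwc : ∀ i, ENNReal.ofReal ((c i).toReal) = c i := fun i => ENNReal.ofReal_toReal (hcfin i)
  have hF1 : Measurable (fun p : E × E => (F p).1) := measurable_fst.comp hFm
  have hF2 : Measurable (fun p : E × E => (F p).2) := measurable_snd.comp hFm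
  have hnormsub : Measurable (fun q : E × E => ‖q.1 - q.2‖) :=
    (measurable_fst.sub measurable_snd).norm
  refine ⟨n, fun i => (u i).1, fun i => (u i).2, fun i => (c i).toReal, hy, hz, ?_, ?_, hyb, hzb,
    ?_, ?_, ?_⟩
  · intro i
    exact ENNReal.toReal_pos (hpos i).ne' (hcfin i)
  · rw [← ENNReal.toReal_sum (fun i _ => hcfin i)]
    have h1 : (π.map F) Set.univ = ∑ i, c i := by
      conv_lhs => rw [hγeq]
      rw [Measure.finsetSum_apply]
      simp [hc]
    rw [← h1, measure_univ, ENNReal.toReal_one]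
  · refine ⟨π.map (fun p => (p.1, (F p).1)), ?_, ?_, ?_⟩
    · rw [Measure.fst_map_prodMk hF1]
      rfl
    · rw [Measure.snd_map_prodMk measurable_fst]
      have h1 : π.map (fun p => (F p).1) = (π.map F).map Prod.fst :=
        (Measure.map_map measurable_fst hFm).symm
      rw [h1]
      conv_lhs => rw [hγeq]
      rw [map_sum_smul_dirac _ measurable_fst]
      simp only [hwc]
      rfl
    · rw [ae_map_iff (measurable_fst.prodMk hF1).aemeasurable
        (measurableSet_le hnormsub measurable_const)]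
      filter_upwards [hFκ] with p hp
      rw [norm_sub_rev]
      exact hp.1
  · refine ⟨π.map (fun p => (p.2, (F p).2)), ?_, ?_, ?_⟩
    · rw [Measure.fst_map_prodMk hF2]
      rfl
    · rw [Measure.snd_map_prodMk measurable_snd]
      have h1 : π.map (fun p => (F p).2) = (π.map F).map Prod.snd :=
        (Measure.map_map measurable_snd hFm).symm
      rw [h1]
      conv_lhs => rw [hγeq]
      rw [map_sum_smul_dirac _ measurable_snd]
      simp only [hwc]
      rfl
    · rw [ae_map_iff (measurable_snd.prodMk hF2).aemeasurable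
        (measurableSet_le hnormsub measurable_const)]
      filter_upwards [hFκ] with p hp
      rw [norm_sub_rev]
      exact hp.2
  · have hg : Measurable (fun q : E × E => ENNReal.ofReal (‖q.2 - q.1‖ ^ 2)) :=
      ((measurable_snd.sub measurable_fst).norm.pow_const 2).ennreal_ofReal
    have h1 : (∫⁻ q, ENNReal.ofReal (‖q.2 - q.1‖ ^ 2) ∂(π.map F)) =
        ∑ i, c i * ENNReal.ofReal (‖(u i).2 - (u i).1‖ ^ 2) := by
      conv_lhs => rw [hγeq]
      rw [lintegral_finsetSum_measure]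
      refine Finset.sum_congr rfl (fun i _ => ?_)
      rw [lintegral_smul_measure, lintegral_dirac' _ hg, smul_eq_mul]
    simp only [hwc]
    rw [← h1, lintegral_map hg hFm]
    apply lintegral_mono_ae
    filter_upwards [hFκ] with p hp
    apply ENNReal.ofReal_le_ofReal
    have h2 : ‖(F p).2 - (F p).1‖ ≤ ‖p.1 - p.2‖ + 2 * κ := by
      calc ‖(F p).2 - (F p).1‖ = ‖((F p).2 - p.2) - ((F p).1 - p.1) + (p.2 - p.1)‖ := by
            congr 1; abel
        _ ≤ ‖((F p).2 - p.2) - ((F p).1 - p.1)‖ + ‖p.2 - p.1‖ := norm_add_le _ _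
        _ ≤ (‖(F p).2 - p.2‖ + ‖(F p).1 - p.1‖) + ‖p.2 - p.1‖ :=
          add_le_add (norm_sub_le _ _) le_rfl
        _ ≤ ‖p.1 - p.2‖ + 2 * κ := by
          rw [norm_sub_rev p.2 p.1]
          linarith [hp.1, hp.2]
    exact pow_le_pow_left₀ (norm_nonneg _) h2 2

end core

section final

/-- A coupling with displacement at most `κ ≤ δ` almost everywhere bounds `W2` by `δ`. -/
theorem W2_le_of_ae_le {d : ℕ} {μ ν : Measure (EuclideanSpace ℝ (Fin d))}
    [IsProbabilityMeasure μ]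
    (π₁ : Measure (EuclideanSpace ℝ (Fin d) × EuclideanSpace ℝ (Fin d)))
    (hf : π₁.fst = μ) (hs : π₁.snd = ν) {κ δ : ℝ} (hκ : 0 ≤ κ) (hκδ : κ ≤ δ)
    (h : ∀ᵐ p ∂π₁, ‖p.1 - p.2‖ ≤ κ) :
    Vale.Agent.H20.W2 μ ν ≤ ENNReal.ofReal δ := by
  unfold Vale.Agent.H20.W2
  have hπ₁univ : π₁ Set.univ = 1 := by
    rw [← Measure.fst_univ, hf, measure_univ]
  have h1 : (⨅ π' : Measure (EuclideanSpace ℝ (Fin d) × EuclideanSpace ℝ (Fin d)),
      ⨅ (_ : π'.fst = μ ∧ π'.snd = ν), ∫⁻ p, ENNReal.ofReal (‖p.1 - p.2‖ ^ 2) ∂π')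
      ≤ ENNReal.ofReal (δ ^ 2) := by
    refine (iInf₂_le π₁ ⟨hf, hs⟩).trans ?_
    calc ∫⁻ p, ENNReal.ofReal (‖p.1 - p.2‖ ^ 2) ∂π₁
        ≤ ∫⁻ _p, ENNReal.ofReal (δ ^ 2) ∂π₁ := by
          apply lintegral_mono_ae
          filter_upwards [h] with p hp
          exact ENNReal.ofReal_le_ofReal (pow_le_pow_left₀ (norm_nonneg _) (hp.trans hκδ) 2)
      _ = ENNReal.ofReal (δ ^ 2) := by rw [lintegral_const, hπ₁univ, mul_one]
  calc _ ≤ (ENNReal.ofReal (δ ^ 2)) ^ ((1 : ℝ) / 2) := ENNReal.rpow_le_rpow h1 (by norm_num)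
    _ = ENNReal.ofReal δ := by
      rw [ENNReal.ofReal_rpow_of_nonneg (by positivity) (by norm_num), ← Real.sqrt_eq_rpow,
        Real.sqrt_sq (hκ.trans hκδ)]

/-- Real-valued cost estimate: `∫ (f + 2κ)² ≤ (sqrt (∫ f²) + δ)²` for `f = ‖p.1 - p.2‖`. -/
theorem integral_shift_sq_le {E : Type*} [NormedAddCommGroup E] [MeasurableSpace E]
    [BorelSpace E] [SecondCountableTopology E] {R : ℝ} (π : Measure (E × E))
    [IsProbabilityMeasure π] (hπ : ∀ᵐ p ∂π, ‖p.1‖ ≤ R ∧ ‖p.2‖ ≤ R) {κ δ : ℝ} (hκ : 0 ≤ κ)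
    (hκδ : 2 * κ ≤ δ) :
    Integrable (fun p : E × E => (‖p.1 - p.2‖ + 2 * κ) ^ 2) π ∧
    (∫ p, (‖p.1 - p.2‖ + 2 * κ) ^ 2 ∂π) ≤ (Real.sqrt (∫ p, ‖p.1 - p.2‖ ^ 2 ∂π) + δ) ^ 2 := by
  have hδ : 0 ≤ δ := by linarith
  have hbd : ∀ᵐ p ∂π, ‖p.1 - p.2‖ ≤ 2 * R := by
    filter_upwards [hπ] with p hp
    have := norm_sub_le p.1 p.2
    linarith [hp.1, hp.2]
  have hm : Measurable fun p : E × E => ‖p.1 - p.2‖ := (measurable_fst.sub measurable_snd).norm
  have hu : Integrable (fun p : E × E => ‖p.1 - p.2‖) π := by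
    refine Integrable.of_bound hm.aestronglyMeasurable (2 * R) ?_
    filter_upwards [hbd] with p hp
    rw [Real.norm_eq_abs, abs_of_nonneg (norm_nonneg _)]
    exact hp
  have hu2 : Integrable (fun p : E × E => ‖p.1 - p.2‖ ^ 2) π := by
    refine Integrable.of_bound (hm.pow_const 2).aestronglyMeasurable ((2 * R) ^ 2) ?_
    filter_upwards [hbd] with p hp
    rw [Real.norm_eq_abs, abs_of_nonneg (sq_nonneg _)]
    exact pow_le_pow_left₀ (norm_nonneg _) hp 2
  set m : ℝ := ∫ p, ‖p.1 - p.2‖ ∂π with hm_def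
  set A : ℝ := ∫ p, ‖p.1 - p.2‖ ^ 2 ∂π with hA_def
  have hA0 : 0 ≤ A := integral_nonneg (fun p => sq_nonneg _)
  have hm0 : 0 ≤ m := integral_nonneg (fun p => norm_nonneg _)
  -- expansion of `∫ (f + t)²`
  have hexp : ∀ t : ℝ, Integrable (fun p : E × E => (‖p.1 - p.2‖ + t) ^ 2) π ∧
      (∫ p, (‖p.1 - p.2‖ + t) ^ 2 ∂π) = A + 2 * t * m + t ^ 2 := by
    intro t
    have e1 : (fun p : E × E => (‖p.1 - p.2‖ + t) ^ 2)
        = fun p => ‖p.1 - p.2‖ ^ 2 + ((2 * t) * ‖p.1 - p.2‖ + t ^ 2) := by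
      ext p; ring
    have i1 : Integrable (fun p : E × E => (2 * t) * ‖p.1 - p.2‖ + t ^ 2) π :=
      (hu.const_mul (2 * t)).add (integrable_const _)
    refine ⟨by rw [e1]; exact hu2.add i1, ?_⟩
    rw [e1, integral_add hu2 i1, integral_add (hu.const_mul (2 * t)) (integrable_const _),
      integral_const_mul, integral_const, hA_def, hm_def]
    simp
    ring
  have hcs : m ^ 2 ≤ A := by
    have h0 : 0 ≤ ∫ p, (‖p.1 - p.2‖ + (-m)) ^ 2 ∂π := integral_nonneg (fun p => sq_nonneg _)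
    rw [(hexp (-m)).2] at h0
    nlinarith
  have hmA : m ≤ Real.sqrt A := Real.le_sqrt_of_sq_le hcs
  refine ⟨(hexp (2 * κ)).1, ?_⟩
  have hmono : (∫ p, (‖p.1 - p.2‖ + 2 * κ) ^ 2 ∂π) ≤ ∫ p, (‖p.1 - p.2‖ + δ) ^ 2 ∂π := by
    apply integral_mono (hexp (2 * κ)).1 (hexp δ).1
    intro p
    exact pow_le_pow_left₀ (by positivity) (by linarith) 2
  rw [(hexp δ).2] at hmono
  have hsq : Real.sqrt A ^ 2 = A := Real.sq_sqrt hA0
  nlinarith [mul_le_mul_of_nonneg_left hmA hδ]

/-- **Discretisation of a coupling** (helper lemma for problem P074): a probability coupling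
carried by a ball is approximated by matched atoms `(y i, z i)` with weights `w i`, pairwise
distinct sites `y i`, pairwise distinct sites `z i`, marginals within `δ` in `W2`, and cost at
most `(sqrt (∫ ‖p.1 - p.2‖²) + δ)²`. -/
theorem exists_discrete_coupling {d : ℕ} {R : ℝ} (hR : 0 ≤ R)
    (π : Measure (EuclideanSpace ℝ (Fin d) × EuclideanSpace ℝ (Fin d)))
    [IsProbabilityMeasure π]
    (hπ : ∀ᵐ p ∂π, ‖p.1‖ ≤ R ∧ ‖p.2‖ ≤ R) {δ : ℝ} (hδ : 0 < δ) :
    ∃ (n : ℕ) (y z : Fin (n + 1) → EuclideanSpace ℝ (Fin d)) (w : Fin (n + 1) → ℝ),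
      Function.Injective y ∧ Function.Injective z ∧ (∀ i, 0 < w i) ∧ (∑ i, w i) = 1 ∧
      (∀ i, ‖y i‖ ≤ R + 1) ∧ (∀ i, ‖z i‖ ≤ R + 1) ∧
      Vale.Agent.H20.W2 π.fst (∑ i, ENNReal.ofReal (w i) • Measure.dirac (y i))
        ≤ ENNReal.ofReal δ ∧
      Vale.Agent.H20.W2 π.snd (∑ i, ENNReal.ofReal (w i) • Measure.dirac (z i))
        ≤ ENNReal.ofReal δ ∧
      (∑ i, w i * ‖z i - y i‖ ^ 2) ≤ (Real.sqrt (∫ p, ‖p.1 - p.2‖ ^ 2 ∂π) + δ) ^ 2 := by
  set κ : ℝ := min (δ / 2) 1 with hκdef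
  have hκ : 0 < κ := lt_min (half_pos hδ) one_pos
  have hκδ : 2 * κ ≤ δ := by
    have := min_le_left (δ / 2) 1
    linarith
  have hκ1 : κ ≤ 1 := min_le_right _ _
  obtain ⟨n, y, z, w, hy, hz, hw, hsum, hyb, hzb, ⟨π₁, h1f, h1s, h1κ⟩, ⟨π₂, h2f, h2s, h2κ⟩,
    hcost⟩ := exists_discrete_core hR π hπ hκ
  have hfstprob : IsProbabilityMeasure π.fst := by
    constructor
    rw [Measure.fst_univ, measure_univ]
  have hsndprob : IsProbabilityMeasure π.snd := by
    constructor
    rw [Measure.snd_univ, measure_univ]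
  refine ⟨n, y, z, w, hy, hz, hw, hsum, fun i => (hyb i).trans (by linarith),
    fun i => (hzb i).trans (by linarith), ?_, ?_, ?_⟩
  · exact W2_le_of_ae_le π₁ h1f h1s hκ.le (by linarith) h1κ
  · exact W2_le_of_ae_le π₂ h2f h2s hκ.le (by linarith) h2κ
  · obtain ⟨hint, hle⟩ := integral_shift_sq_le π hπ hκ.le hκδ
    have hnn : 0 ≤ᵐ[π] fun p : EuclideanSpace ℝ (Fin d) × EuclideanSpace ℝ (Fin d) =>
        (‖p.1 - p.2‖ + 2 * κ) ^ 2 := Filter.Eventually.of_forall (fun p => sq_nonneg _)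
    have h1 : ENNReal.ofReal (∑ i, w i * ‖z i - y i‖ ^ 2)
        = ∑ i, ENNReal.ofReal (w i) * ENNReal.ofReal (‖z i - y i‖ ^ 2) := by
      rw [ENNReal.ofReal_sum_of_nonneg (fun i _ => mul_nonneg (hw i).le (sq_nonneg _))]
      refine Finset.sum_congr rfl (fun i _ => ?_)
      rw [ENNReal.ofReal_mul (hw i).le]
    have h2 : ENNReal.ofReal (∑ i, w i * ‖z i - y i‖ ^ 2)
        ≤ ENNReal.ofReal (∫ p, (‖p.1 - p.2‖ + 2 * κ) ^ 2 ∂π) := by
      rw [h1, ofReal_integral_eq_lintegral_ofReal hint hnn]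
      exact hcost
    have h3 : (∑ i, w i * ‖z i - y i‖ ^ 2) ≤ ∫ p, (‖p.1 - p.2‖ + 2 * κ) ^ 2 ∂π :=
      (ENNReal.ofReal_le_ofReal_iff (integral_nonneg (fun p => sq_nonneg _))).1 h2
    exact h3.trans hle

end final

end Vale.Agent.H38
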